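import Vale.Agent.P287T.Gv.Cov
import Vale.Agent.P287T.Dt.Inp
import Vale.Agent.P287T.Sx.Grd

/-!
# Block GL: from the charts to the strict family
-/

set_option linter.unusedVariables false

noncomputable section

namespace Vale.Agent.P287T.Gv

open Vale.Agent.P287T.Cy Vale.Agent.P287T.Au Vale.Agent.P287T.Dt Vale.Agent.P287T.Sx

variable {W : S6}

/-- a test object: Euler characteristic one with all factorizations of the shape of the family -/
def Tst (C : Cf W) : Prop := ∃ (κ : Type) (_ : Fintype κ) (_ : DecidableEq κ) (q : κ → ℤ)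
  (e : Matrix κ κ S6) (a : ℤ) (n : ℕ), IsMF W q e ∧ Lo C.p q a ∧
    ∀ d, IsMF W C.p d → Chi C.p q e a n d = 1

/-- the points of the chart `T` cover the cone -/
def Onto {C : Cf W} (T : Cht C) : Prop := ∀ z ∈ C.Z, ∃ φ : T.D →ₐ[ℂ] ℂ, T.π φ = z

/-- **GL** -/
theorem exists_inp (hW : W.IsHomogeneous 3) (C : Cf W) (ht : Tst C) (hE : StEt) :
    ∃ (T : Cht C) (Γ : Gr C.B T.D), Onto T ∧ IsGr T Γ ∧ Inp Γ W C.p T.d := by
  obtain ⟨κ, _, _, q, e, a, n, h1, h2, h3⟩ := ht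
  obtain ⟨T, r, F, k1, k2, k3⟩ := cover (s := 1) h1 h2
    (fun z hz d hd => h3 d ((C.orb z hz).mf d hd)) (hE W C)
  obtain ⟨Γ, hΓ⟩ := exists_gr T
  have := ft T
  have := red1 T
  have := red2 T
  have := red3 T
  refine ⟨T, Γ, k1, hΓ, inp Γ (hΓ.fm hW) (hΓ.fm hW).hW (fun φ ψ h => ?_) h1 h2 (Or.inl rfl)
    (fun φ => h3 _ (val_mf T φ)) F k2 fun φ₀ => hΓ.zero ▸ k3 φ₀⟩
  have h4 : T.π ψ = T.π φ := funext fun i => (h _).symm
  exact ⟨C.O (T.π φ), C.orb _ (T.pt φ), T.fib φ, h4 ▸ T.fib ψ⟩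

/-- **ALG-U**: the strict family over the cone -/
theorem exists_out (hW : W.IsHomogeneous 3) (C : Cf W) (ht : Tst C) (hE : StEt) (hS : StStrict) :
    ∃ (T : Cht C) (Γ : Gr C.B T.D), Onto T ∧ IsGr T Γ ∧ Nonempty (Out Γ W C.p T.d) := by
  obtain ⟨T, Γ, h1, h2, h3⟩ := exists_inp hW C ht hE
  have := flat T
  have := noeth T
  exact ⟨T, Γ, h1, h2, hS _ _ _ Γ W C.p T.d h3⟩

end Vale.Agent.P287T.Gv
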