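import Vale.Agent.P287T.Gv.Main
import Vale.Agent.P287T.To.Main
import Vale.Agent.P287T.Top.Hg
import Vale.Agent.P287T.Au.Tp

/-!
# The test object of a family of a nodal class
-/

noncomputable section

namespace Vale.Agent.P287T.Gv

open P287T.Cy P287T.Au P287T.Rr P287T.Cl P287T.Top P287T.G3
open scoped ComplexConjugate

variable {W : S6}

theorem zE_of {c : Cu W} {φ : ℝ} {v : Cls W} {C : Cf W} (h : C.All (QQ c φ v)) :
    zE C.p = (1 - om) ^ 3 * v.1 := by
  obtain ⟨x⟩ := mem_ne C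
  rw [← (qe_ob h x).2]
  exact (mul_div_cancel₀ _ c0_ne).symm

theorem conj_om : conj om = om ^ 2 := by
  rw [om_sq]
  refine Complex.ext ?_ ?_ <;> simp [om]
  ring

theorem zE_neg {ι : Type} [Fintype ι] (p : ι → ℤ) : zE (-p) = conj (zE p) := by
  have h1 : ζ⁻¹ = conj ζ := by
    refine (eq_inv_of_mul_eq_one_left ?_).symm
    rw [ζ_eq, map_neg, conj_om]
    linear_combination om_cube
  simp only [zE, map_sum, map_zpow₀, Pi.neg_apply, zpow_neg, ← inv_zpow, h1]

theorem primA_conj {a : ℂ} (h : PrimA a) : PrimA (-conj a) := by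
  obtain ⟨p1, p2, ⟨u, rfl, rfl, rfl⟩, h⟩ := h
  refine ⟨-u 0 - -u 2, -u 2 - -u 1, ⟨![-u 0, -u 2, -u 1], ?_, rfl, rfl⟩, ?_⟩
  · simp only [eis, map_add, map_mul, map_pow, map_intCast, conj_om, Matrix.cons_val_zero,
      Matrix.cons_val_one, Matrix.cons_val, Int.cast_neg]
    linear_combination (-(u 2 : ℂ) * om) * om_cube
  · obtain ⟨a, b, e⟩ := h
    exact ⟨-a, b - a, by linear_combination e⟩

theorem tst_zE (hR : HRR) (hP : Per.StPer) (hM : StMem) (hL : StLat) (hA : StAdd) (c : Cu W)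
    {a : ℂ} (ha : PrimA a) {C : Cf W} (h : zE C.p = (1 - om) ^ 3 * a) : Tst C := by
  obtain ⟨G, a, n, h1, h2⟩ := To.test hR hP hM hL hA c ha C.p h
  exact ⟨_, inferInstance, inferInstance, G.pz, G.dz, a, n, G.isMF, h1, h2⟩

theorem tst_of (hR : HRR) (hP : Per.StPer) (hM : StMem) (hL : StLat) (hA : StAdd) (c : Cu W)
    {φ : ℝ} {v : Cls W} (hv : PrimA v.1) {C : Cf W} (h : C.All (QQ c φ v)) : Tst C :=
  tst_zE hR hP hM hL hA c hv (zE_of h)

/-- the test object of the transposed family -/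
theorem tst_tr (hR : HRR) (hP : Per.StPer) (hM : StMem) (hL : StLat) (hA : StAdd) (c : Cu W)
    {φ : ℝ} {v : Cls W} (hv : PrimA v.1) {C : Cf W} (h : C.All (QQ c φ v)) : Tst C.tr := by
  refine tst_zE hR hP hM hL hA c (primA_conj hv) ((zE_neg C.p).trans ?_)
  rw [zE_of h, map_mul, conj_c0]
  ring

end Vale.Agent.P287T.Gv
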