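import Vale.Agent.P287T.Au.Defs
import Mathlib.LinearAlgebra.Eigenspace.Basic
import Mathlib.RingTheory.Smooth.Pi
import Mathlib.RingTheory.Finiteness.FinitePresentationLocal

/-!
# Localisations and finite products of charts
-/

set_option linter.unusedVariables false
set_option linter.unusedSectionVars false

open MvPolynomial

noncomputable section

namespace Vale.Agent.P287T.Gv

open Vale.Agent.P287T.Cy Vale.Agent.P287T.Au

section

variable {D : Type} [CommRing D] [Algebra ℂ D]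

/-- the eigenspaces of the scaling by two -/
def eg (σ : D →ₐ[ℂ] D) (k : ℤ) : Submodule ℂ D :=
  Module.End.eigenspace σ.toLinearMap ((2 : ℂ) ^ k)

theorem mem_eg {σ : D →ₐ[ℂ] D} {k : ℤ} {x : D} : x ∈ eg σ k ↔ σ x = (2 : ℂ) ^ k • x :=
  Module.End.mem_eigenspace_iff

theorem two_inj : Function.Injective fun k : ℤ => (2 : ℂ) ^ k := fun a b h => by
  have h1 := congrArg (fun z : ℂ => ‖z‖) h
  simp only [norm_zpow, Complex.norm_ofNat] at h1
  exact zpow_right_injective₀ (by norm_num) (by norm_num) h1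

/-- the grading by the eigenspaces -/
@[reducible] def grOf (σ : D →ₐ[ℂ] D) (h : iSup (eg σ) = ⊤) : GradedAlgebra (eg σ) :=
  { (DirectSum.isInternal_submodule_of_iSupIndep_of_iSup_eq_top
      ((Module.End.eigenspaces_iSupIndep σ.toLinearMap).comp two_inj) h).chooseDecomposition with
    one_mem := mem_eg.2 (by simp)
    mul_mem := fun i j x y hx hy => mem_eg.2 (by
      rw [map_mul, mem_eg.1 hx, mem_eg.1 hy, zpow_add₀ two_ne_zero, smul_mul_smul_comm]) }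

theorem exists_sig (𝒟 : ℤ → Submodule ℂ D) [GradedAlgebra 𝒟] :
    ∃ σ : D →ₐ[ℂ] D, ∀ k, 𝒟 k ≤ eg σ k := by
  let f : ∀ k, 𝒟 k →ₗ[ℂ] D := fun k => (2 : ℂ) ^ k • (𝒟 k).subtype
  have h1 : f 0 (GradedMonoid.GOne.one (A := fun k => 𝒟 k)) = 1 := by simp [f]
  have h2 : ∀ {i j} (a : 𝒟 i) (b : 𝒟 j), f _ (GradedMonoid.GMul.mul (A := fun k => 𝒟 k) a b) =
      f _ a * f _ b := fun {i j} a b => by
    show (2 : ℂ) ^ (i + j) • (a.1 * b.1) = ((2 : ℂ) ^ i • a.1) * ((2 : ℂ) ^ j • b.1)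
    rw [zpow_add₀ two_ne_zero, smul_mul_smul_comm]
  let τ := DirectSum.toAlgebra ℂ (fun k => 𝒟 k) f h1 h2
  refine ⟨τ.comp (DirectSum.decomposeAlgEquiv 𝒟).toAlgHom, fun k x hx => mem_eg.2 ?_⟩
  show τ (DirectSum.decompose 𝒟 x) = _
  rw [DirectSum.decompose_of_mem 𝒟 hx]
  exact DirectSum.toSemiring_of (A := fun k => 𝒟 k) (fun k => (f k).toAddMonoidHom) h1 h2 k ⟨x, hx⟩

theorem gr_ind (𝒟 : ℤ → Submodule ℂ D) [GradedAlgebra 𝒟] {V : Type} [AddCommGroup V] [Module ℂ V]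
    (f : D →ₗ[ℂ] V) (p : Submodule ℂ V) (h : ∀ k, ∀ x ∈ 𝒟 k, f x ∈ p) (x : D) : f x ∈ p := by
  induction x using DirectSum.Decomposition.inductionOn 𝒟 with
  | zero => rw [map_zero]; exact p.zero_mem
  | homogeneous m => exact h _ _ m.2
  | add a b ha hb => rw [map_add]; exact p.add_mem ha hb

theorem val_map {D' : Type} [CommRing D'] [Algebra ℂ D'] (ρ : D →ₐ[ℂ] D') (φ : D' →ₐ[ℂ] ℂ)
    {ι κ : Type} (g : Matrix κ ι (MvPolynomial (Fin 6) D)) :
    val φ (g.map (MvPolynomial.map (ρ : D →+* D'))) = val (φ.comp ρ) g := by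
  ext i l : 2
  simp only [val, Matrix.map_apply, map_map]
  rfl

theorem MD.map {D' : Type} [CommRing D'] [Algebra ℂ D'] {D₀ : Submodule ℂ D}
    {D₀' : Submodule ℂ D'} (ρ : D →+* D') (h : ∀ x ∈ D₀, ρ x ∈ D₀') {ι κ : Type} {p : ι → ℤ}
    {q : κ → ℤ} {j : ℤ} {g : Matrix κ ι (MvPolynomial (Fin 6) D)} (hg : MD D₀ p q j g) :
    MD D₀' p q j (g.map (MvPolynomial.map ρ)) := fun i l m => by
  rw [Matrix.map_apply, coeff_map]
  exact ⟨h _ (hg i l m).1, fun e => (hg i l m).2 fun e' => e (by rw [e', map_zero])⟩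

theorem sq_map {D' : Type} [CommRing D'] [Algebra ℂ D'] (ρ : D →ₐ[ℂ] D') {ι : Type} [Fintype ι]
    [DecidableEq ι] {W : S6} {d : Matrix ι ι (MvPolynomial (Fin 6) D)}
    (h : d * d = MvPolynomial.map (algebraMap ℂ D) W • (1 : Matrix ι ι (MvPolynomial (Fin 6) D))) :
    d.map (MvPolynomial.map (ρ : D →+* D')) * d.map (MvPolynomial.map (ρ : D →+* D')) =
      MvPolynomial.map (algebraMap ℂ D') W • (1 : Matrix ι ι (MvPolynomial (Fin 6) D')) := by
  rw [← Matrix.map_mul, h]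
  ext i l : 2
  simp only [Matrix.map_apply, Matrix.smul_apply, smul_eq_mul, map_mul, map_map,
    AlgHom.comp_algebraMap, Matrix.one_apply]
  split_ifs <;> simp

end

variable {W : S6} {C : Cf W}

/-- maps of charts -/
structure Mor (T T' : Cht C) (ρ : T.D →ₐ[ℂ] T'.D) : Prop where
  alg : ∀ b, ρ (algebraMap C.B T.D b) = algebraMap C.B T'.D b
  d : T'.d = T.d.map (MvPolynomial.map (ρ : T.D →+* T'.D))
  gr : ∀ k, ∀ x ∈ T.𝒟 k, ρ x ∈ T'.𝒟 k

theorem Mor.π {T T' : Cht C} {ρ : T.D →ₐ[ℂ] T'.D} (h : Mor T T' ρ) (φ : T'.D →ₐ[ℂ] ℂ) :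
    T.π (φ.comp ρ) = T'.π φ := funext fun i => congrArg φ (h.alg _)

theorem Mor.val {T T' : Cht C} {ρ : T.D →ₐ[ℂ] T'.D} (h : Mor T T' ρ) (φ : T'.D →ₐ[ℂ] ℂ) :
    val (φ.comp ρ) T.d = val φ T'.d := by rw [h.d, val_map]

theorem loc_gr {D : Type} [CommRing D] [Algebra ℂ D] (𝒟 : ℤ → Submodule ℂ D) [GradedAlgebra 𝒟]
    {f : D} (hf : f ∈ 𝒟 0) (L : Type) [CommRing L] [Algebra ℂ L] [Algebra D L]
    [IsScalarTower ℂ D L] [IsLocalization.Away f L] :
    ∃ σ : L →ₐ[ℂ] L, iSup (eg σ) = ⊤ ∧ ∀ k, ∀ x ∈ 𝒟 k, algebraMap D L x ∈ eg σ k := by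
  obtain ⟨σ, hσ⟩ := exists_sig 𝒟
  let ρ : D →ₐ[ℂ] L := IsScalarTower.toAlgHom ℂ D L
  have hu : IsUnit (ρ f) := IsLocalization.Away.algebraMap_isUnit f
  have hσf : σ f = f := by simpa using mem_eg.1 (hσ 0 hf)
  have hu' : IsUnit ((ρ.comp σ) f) := by rwa [AlgHom.comp_apply, hσf]
  let σ' : L →ₐ[ℂ] L := IsLocalization.Away.liftAlgHom f hu'
  have h1 : ∀ a, σ' (ρ a) = ρ (σ a) := fun a => IsLocalization.Away.lift_eq f hu' a
  have h2 : ∀ x : L, ∃ n a, x * ρ f ^ n = ρ a := fun x => IsLocalization.Away.surj f x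
  have h3 : ∀ k, ∀ x ∈ 𝒟 k, ρ x ∈ eg σ' k := fun k x hx =>
    mem_eg.2 (by rw [h1, mem_eg.1 (hσ k hx), map_smul])
  refine ⟨σ', eq_top_iff.2 fun x _ => ?_, h3⟩
  obtain ⟨n, a, e⟩ := h2 x
  obtain ⟨u, hu1⟩ := hu.exists_right_inv
  have h5 : σ' u = u := by
    have := congrArg σ' hu1
    rw [map_mul, h1, hσf, map_one, ← hu1] at this
    exact hu.mul_left_cancel this
  have h6 : x = (LinearMap.mulRight ℂ (u ^ n) ∘ₗ ρ.toLinearMap) a := by
    show x = ρ a * u ^ n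
    rw [← e, mul_assoc, ← mul_pow, hu1, one_pow, mul_one]
  rw [h6]
  refine gr_ind 𝒟 _ _ (fun k y hy => Submodule.mem_iSup_of_mem k (mem_eg.2 ?_)) a
  show σ' (ρ y * u ^ n) = _ • (ρ y * u ^ n)
  rw [map_mul, map_pow, h5, mem_eg.1 (h3 k y hy), smul_mul_assoc]

theorem exists_loc' (T : Cht C) {f : T.D} (hf : f ∈ T.𝒟 0) (L : Type) [CommRing L] [Algebra ℂ L]
    [Algebra T.D L] [Algebra C.B L] [IsScalarTower ℂ T.D L] [IsScalarTower C.B T.D L]
    [IsScalarTower ℂ C.B L] [IsLocalization.Away f L] :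
    ∃ (T' : Cht C) (ρ : T.D →ₐ[ℂ] T'.D), Mor T T' ρ ∧ IsUnit (ρ f) ∧
      (∀ x, ∃ n a, x * ρ f ^ n = ρ a) ∧
      ∀ φ : T.D →ₐ[ℂ] ℂ, φ f ≠ 0 → ∃ φ' : T'.D →ₐ[ℂ] ℂ, φ'.comp ρ = φ := by
  obtain ⟨σ, h4, h3⟩ := loc_gr T.𝒟 hf L
  let ρ : T.D →ₐ[ℂ] L := IsScalarTower.toAlgHom ℂ T.D L
  have h7 : Algebra.Smooth T.D L := .of_isLocalization_Away f
  have h8 := T.sm
  have h9 : ∀ b, ρ (algebraMap C.B T.D b) = algebraMap C.B L b := fun b =>
    (IsScalarTower.algebraMap_apply C.B T.D L b).symm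
  have h10 : ∀ φ : L →ₐ[ℂ] ℂ, (fun i => φ (algebraMap C.B L (C.y i))) = T.π (φ.comp ρ) :=
    fun φ => funext fun i => congrArg φ (h9 _).symm
  let T' : Cht C :=
    { D := L
      sm := .comp C.B T.D L
      𝒟 := eg σ
      gr := grOf σ h4
      dy := fun i => h9 _ ▸ h3 _ _ (T.dy i)
      d := T.d.map (MvPolynomial.map (ρ : T.D →+* L))
      dg := MD.map _ (h3 0) T.dg
      sq := sq_map ρ T.sq
      pt := fun φ => h10 φ ▸ T.pt (φ.comp ρ)
      fib := fun φ => by rw [val_map, h10]; exact T.fib (φ.comp ρ) }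
  refine ⟨T', ρ, ⟨h9, rfl, h3⟩, IsLocalization.Away.algebraMap_isUnit f,
    fun x => IsLocalization.Away.surj f x, fun φ h => ?_⟩
  have h9 : IsUnit (φ f) := h.isUnit
  exact ⟨IsLocalization.Away.liftAlgHom (S := L) f h9,
    AlgHom.ext fun a => IsLocalization.Away.lift_eq (S := L) f h9 a⟩

/-- the open part of a chart where `f` does not vanish -/
theorem exists_loc (T : Cht C) {f : T.D} (hf : f ∈ T.𝒟 0) :
    ∃ (T' : Cht C) (ρ : T.D →ₐ[ℂ] T'.D), Mor T T' ρ ∧ IsUnit (ρ f) ∧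
      (∀ x, ∃ n a, x * ρ f ^ n = ρ a) ∧
      ∀ φ : T.D →ₐ[ℂ] ℂ, φ f ≠ 0 → ∃ φ' : T'.D →ₐ[ℂ] ℂ, φ'.comp ρ = φ :=
  exists_loc' T hf (Localization.Away f)

section

variable {α : Type} [Fintype α] [DecidableEq α] {D : α → Type} [∀ a, CommRing (D a)]
  [∀ a, Algebra ℂ (D a)]

theorem pi_pt (φ : (∀ a, D a) →ₐ[ℂ] ℂ) :
    ∃ (a : α) (ψ : D a →ₐ[ℂ] ℂ), φ = ψ.comp (Pi.evalAlgHom ℂ D a) := by
  have h1 : ∑ a, φ (Pi.single a 1) = 1 := by
    rw [← map_sum, ← map_one φ]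
    exact congrArg φ (Finset.univ_sum_single (1 : ∀ a, D a))
  obtain ⟨a, -, ha⟩ := Finset.exists_ne_zero_of_sum_ne_zero (h1.trans_ne one_ne_zero)
  have h2 : φ (Pi.single a 1) = 1 := by
    refine mul_left_cancel₀ ha ?_
    rw [← map_mul, ← Pi.single_mul, mul_one, mul_one]
  have h3 : ∀ x : ∀ a, D a, φ (Pi.single a (x a)) = φ x := fun x => by
    rw [← mul_one (x a), Pi.single_mul_right, map_mul, h2, mul_one]
  refine ⟨a, AlgHom.ofLinearMap (φ.toLinearMap ∘ₗ LinearMap.single ℂ D a) h2 fun x y => ?_,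
    AlgHom.ext fun x => (h3 x).symm⟩
  show φ (Pi.single a (x * y)) = φ (Pi.single a x) * φ (Pi.single a y)
  rw [Pi.single_mul, map_mul]

theorem pi_poly {σ : Type} (g : ∀ a, MvPolynomial σ (D a)) :
    ∃ G : MvPolynomial σ (∀ a, D a), ∀ m a, coeff m G a = coeff m (g a) := by
  classical
  refine ⟨∑ m ∈ Finset.univ.biUnion fun a => (g a).support, monomial m fun a => coeff m (g a),
    fun m a => ?_⟩
  rw [coeff_sum, Finset.sum_eq_single m, coeff_monomial, if_pos rfl]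
  · intro n _ h
    rw [coeff_monomial, if_neg h]
  · intro h
    rw [coeff_monomial, if_pos rfl]
    funext b
    exact notMem_support_iff.1 fun e => h (Finset.mem_biUnion.2 ⟨b, Finset.mem_univ _, e⟩)

end

/-- the disjoint union of finitely many charts -/
theorem exists_pi {α : Type} [Fintype α] [DecidableEq α] (T : α → Cht C) :
    ∃ (P : Cht C) (ρ : ∀ a, P.D →ₐ[ℂ] (T a).D) (e : α → P.D), (∀ a, Mor P (T a) (ρ a)) ∧
      (∀ a, e a ∈ P.𝒟 0) ∧ (∀ a b, ρ a (e b) = if a = b then 1 else 0) ∧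
      ∀ φ : P.D →ₐ[ℂ] ℂ, ∃ (a : α) (ψ : (T a).D →ₐ[ℂ] ℂ), φ = ψ.comp (ρ a) := by
  choose σ hσ using fun a => exists_sig (T a).𝒟
  let D : α → Type := fun a => (T a).D
  let ρ : ∀ a, (∀ a, D a) →ₐ[ℂ] D a := Pi.evalAlgHom ℂ D
  let σ' : (∀ a, D a) →ₐ[ℂ] ∀ a, D a := AlgHom.pi fun a => (σ a).comp (ρ a)
  have h1 : ∀ k x, (∀ a, x a ∈ (T a).𝒟 k) → x ∈ eg σ' k := fun k x h =>
    mem_eg.2 (funext fun a => mem_eg.1 (hσ a k (h a)))
  have h2 : ∀ k a, ∀ y ∈ (T a).𝒟 k, ∀ b, (Pi.single a y : ∀ a, D a) b ∈ (T b).𝒟 k :=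
    fun k a y hy b => by
      by_cases h : b = a
      · subst h
        rwa [Pi.single_eq_same]
      · rw [Pi.single_eq_of_ne h]
        exact zero_mem _
  have h3 : iSup (eg σ') = ⊤ := eq_top_iff.2 fun x _ => by
    rw [← Finset.univ_sum_single x]
    exact sum_mem fun a _ => gr_ind (T a).𝒟 (LinearMap.single ℂ D a) _
      (fun k y hy => Submodule.mem_iSup_of_mem k (h1 k _ (h2 k a y hy))) (x a)
  have h4 : ∀ k x, x ∈ eg σ' k → ∀ a, x a ∈ (T a).𝒟 k := fun k x hx a => by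
    have e1 : x a ∈ eg (σ a) k := mem_eg.2 (congrFun (mem_eg.1 hx) a)
    have e2 : iSupIndep (eg (σ a)) :=
      (Module.End.eigenspaces_iSupIndep (σ a).toLinearMap).comp two_inj
    have e3 : (T a).𝒟 = eg (σ a) := (iSupIndep.le_iff_eq_of_iSup_eq_top e2
      (DirectSum.Decomposition.isInternal (T a).𝒟).submodule_iSup_eq_top).1 (hσ a)
    rwa [e3]
  choose d hd using fun i l => pi_poly fun a => (T a).d i l
  have h5 : ∀ a, (T a).d = (Matrix.of d).map (MvPolynomial.map (ρ a : (∀ a, D a) →+* D a)) :=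
    fun a => by
      ext i l m
      rw [Matrix.map_apply, coeff_map]
      exact (hd i l m a).symm
  have h6 : ∀ a, Algebra.Smooth C.B (D a) := fun a => (T a).sm
  let P : Cht C :=
    { D := ∀ a, D a
      sm := ⟨inferInstance, inferInstance⟩
      𝒟 := eg σ'
      gr := grOf σ' h3
      dy := fun i => h1 _ _ fun a => (T a).dy i
      d := Matrix.of d
      dg := fun i l m => ⟨h1 _ _ fun a => by
          rw [Matrix.of_apply, hd]
          exact ((T a).dg i l m).1, fun h => by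
          obtain ⟨a, ha⟩ := Function.ne_iff.1 h
          rw [Matrix.of_apply, hd] at ha
          exact ((T a).dg i l m).2 ha⟩
      sq := by
        ext i l m a
        have e1 := congrArg (fun M => coeff m (M i l)) (T a).sq
        have e2 : ∀ g : MvPolynomial (Fin 6) (∀ a, D a),
            coeff m g a = coeff m (MvPolynomial.map (ρ a : (∀ a, D a) →+* D a) g) := fun g => by
          rw [coeff_map]
          rfl
        rw [h5 a, ← Matrix.map_mul, Matrix.map_apply] at e1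
        rw [e2, e2, e1]
        simp only [Matrix.smul_apply, smul_eq_mul, map_mul, map_map, AlgHom.comp_algebraMap,
          Matrix.one_apply]
        split_ifs <;> simp only [map_one, map_zero] <;> rfl
      pt := fun φ => by
        obtain ⟨a, ψ, rfl⟩ := pi_pt φ
        exact (T a).pt ψ
      fib := fun φ => by
        obtain ⟨a, ψ, rfl⟩ := pi_pt φ
        rw [← val_map, ← h5]
        exact (T a).fib ψ }
  refine ⟨P, ρ, fun a => Pi.single a 1, fun a => ⟨fun _ => rfl, h5 a, fun k x hx => h4 k x hx a⟩,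
    fun a => h1 0 _ (h2 0 a 1 (SetLike.one_mem_graded _)), fun a b => ?_, pi_pt⟩
  show (Pi.single b 1 : ∀ a, D a) a = _
  split_ifs with h
  · subst h
    exact Pi.single_eq_same _ _
  · exact Pi.single_eq_of_ne h _

end Vale.Agent.P287T.Gv
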