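import Vale.Agent.P287T.Gv.Red
import Vale.Agent.P287T.Gv.Sg
import Vale.Agent.P287T.Dt.Reg

/-!
# One chart onto the cone, with locally constant admissible frames
-/

set_option linter.unusedVariables false

open MvPolynomial Module TensorProduct

noncomputable section

namespace Vale.Agent.P287T.Gv

open Vale.Agent.P287T.Cy Vale.Agent.P287T.Au Vale.Agent.P287T.Dt

variable {W : S6} {C : Cf W}

/-- the evaluation at a point of the cone -/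
def evZ (C : Cf W) {z : Fin C.ν → ℂ} (hz : z ∈ C.Z) : C.B →ₐ[ℂ] ℂ :=
  Ideal.Quotient.liftₐ C.I (aeval z) fun f hf => by
    rw [aeval_eq_eval]
    exact C.mem_I.1 hf z hz

theorem evZ_y {z : Fin C.ν → ℂ} (hz : z ∈ C.Z) (i : Fin C.ν) : evZ C hz (C.y i) = z i := by
  simp [evZ, Cf.y]

theorem B_ext {A : Type} [CommRing A] [Algebra ℂ A] {ψ ψ' : C.B →ₐ[ℂ] A}
    (h : ∀ i, ψ (C.y i) = ψ' (C.y i)) : ψ = ψ' :=
  Ideal.Quotient.algHom_ext ℂ (MvPolynomial.algHom_ext h)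

theorem π_iff (T : Cht C) (φ : T.D →ₐ[ℂ] ℂ) {z : Fin C.ν → ℂ} (hz : z ∈ C.Z) :
    T.π φ = z ↔ ∀ b, φ (algebraMap C.B T.D b) = evZ C hz b :=
  ⟨fun h => AlgHom.congr_fun (B_ext (ψ := φ.comp (IsScalarTower.toAlgHom ℂ C.B T.D))
    fun i => (congrFun h i).trans (evZ_y hz i).symm), fun h => funext fun i =>
      (h _).trans (evZ_y hz i)⟩

theorem red_B (C : Cf W) : IsReduced C.B := by
  rw [← Ideal.isRadical_iff_quotient_reduced]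
  rintro f ⟨n, hn⟩
  refine C.mem_I.2 fun z hz => ?_
  have := C.mem_I.1 hn z hz
  rw [map_pow] at this
  exact eq_zero_of_pow_eq_zero this

theorem ft (T : Cht C) : Algebra.FiniteType ℂ T.D := by
  have := T.sm
  exact .trans (S := C.B) inferInstance inferInstance

theorem noeth (T : Cht C) : IsNoetherianRing T.D := by
  have := ft T
  exact Algebra.FiniteType.isNoetherianRing ℂ _

theorem flat (T : Cht C) : Module.Flat C.B T.D := by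
  have := T.sm
  infer_instance

theorem red1 (T : Cht C) : IsReduced T.D := by
  have := T.sm
  have := red_B C
  exact red_smooth C.B _

theorem sm2 (T : Cht C) : Algebra.Smooth C.B (T.D ⊗[C.B] T.D) := by
  have := T.sm
  exact .comp C.B T.D _

theorem red2 (T : Cht C) : IsReduced (T.D ⊗[C.B] T.D) := by
  have := sm2 T
  have := red_B C
  exact red_smooth C.B _

theorem sm3 (T : Cht C) : Algebra.Smooth C.B (T.D ⊗[C.B] (T.D ⊗[C.B] T.D)) := by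
  have := T.sm
  have := sm2 T
  exact .comp C.B T.D _

theorem red3 (T : Cht C) : IsReduced (T.D ⊗[C.B] (T.D ⊗[C.B] T.D)) := by
  have := sm3 T
  have := red_B C
  exact red_smooth C.B _

/-- the functions of degree zero on the set of points -/
def fn0 (T : Cht C) : Subalgebra ℂ ((T.D →ₐ[ℂ] ℂ) → ℂ) where
  carrier := {g | ∃ x ∈ T.𝒟 0, g = fun φ => φ x}
  mul_mem' := by
    rintro _ _ ⟨x, hx, rfl⟩ ⟨y, hy, rfl⟩
    exact ⟨x * y, by simpa using SetLike.mul_mem_graded hx hy, funext fun φ => (map_mul φ x y).symm⟩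
  add_mem' := by
    rintro _ _ ⟨x, hx, rfl⟩ ⟨y, hy, rfl⟩
    exact ⟨x + y, add_mem hx hy, funext fun φ => (map_add φ x y).symm⟩
  algebraMap_mem' c := ⟨c • 1, Submodule.smul_mem _ c (SetLike.one_mem_graded _),
    funext fun φ => by simp⟩

theorem fam0 (T : Cht C) : Fam (fn0 T) fun φ => val φ T.d := fun i l m =>
  ⟨_, (T.dg i l m).1, funext fun φ => coeff_map _ _ _⟩

theorem val_mf (T : Cht C) (φ : T.D →ₐ[ℂ] ℂ) : IsMF W C.p (val φ T.d) :=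
  (C.orb _ (T.pt φ)).mf _ (T.fib φ)

variable {κ : Type} [Fintype κ] [DecidableEq κ] {q : κ → ℤ} {e : Matrix κ κ S6} {a s : ℤ} {n : ℕ}

/-- a chart through a given point on which one frame is admissible -/
theorem loc_frame (hE : IsMF W q e) (hL : Lo C.p q a)
    (hc : ∀ z ∈ C.Z, ∀ d ∈ C.O z, Chi C.p q e a n d = s) (T : Cht C) (φ : T.D →ₐ[ℂ] ℂ) {r : ℕ}
    (hr : finrank ℂ (BB q e C.p (val φ T.d) (3 * (a + n))) = r) :
    ∃ (T' : Cht C) (F : Fr C.ι κ r), (∃ φ', T'.π φ' = T.π φ) ∧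
      ∀ φ', Adm C.p q e a n (val φ' T'.d) F := by
  obtain ⟨F, hF⟩ := adm_ex hE (val_mf T φ) hr
  obtain ⟨_, ⟨f, hf, rfl⟩, h1, h2⟩ := adm_open (t₀ := φ) hE hL (fam0 T)
    (fun φ => (val_mf T φ).deg) (val_mf T φ) hF
  obtain ⟨T', ρ, hρ, hu, -, h3⟩ := exists_loc T hf
  refine ⟨T', F, ?_, fun φ' => ?_⟩
  · obtain ⟨φ', rfl⟩ := h3 φ h1
    exact ⟨φ', (hρ.π φ').symm⟩
  · rw [← hρ.val]
    exact h2 _ (hu.map φ').ne_zero (val_mf T _)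
      ((hc _ (T.pt _) _ (T.fib _)).trans (hc _ (T.pt _) _ (T.fib _)).symm)

/-- one chart onto the cone, built from charts with the property `P` -/
theorem cover_of {β : Type} (P : ∀ T : Cht C, (T.D →ₐ[ℂ] ℂ) → β → Prop)
    (hP : ∀ (T T' : Cht C) (ρ : T.D →ₐ[ℂ] T'.D), Mor T T' ρ → ∀ φ b, P T' φ b → P T (φ.comp ρ) b)
    (h : ∀ z ∈ C.Z, ∃ (T : Cht C) (b : β), (∃ φ, T.π φ = z) ∧ ∀ φ, P T φ b) :
    ∃ (T : Cht C) (F : (T.D →ₐ[ℂ] ℂ) → β), (∀ z ∈ C.Z, ∃ φ, T.π φ = z) ∧ (∀ φ, P T φ (F φ)) ∧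
      ∀ φ₀ : T.D →ₐ[ℂ] ℂ, ∃ w ∈ T.𝒟 0, φ₀ w ≠ 0 ∧ ∀ φ, φ w ≠ 0 → F φ = F φ₀ := by
  classical
  choose T b h1 h2 using fun z : C.Z => h z.1 z.2
  have := fun z => (T z).sm
  obtain ⟨s, hs⟩ := fin_cover (B := C.B) fun z => (T z).D
  obtain ⟨Q, ρ, ε, h3, h4, h5, h6⟩ := exists_pi fun z : s => T z.1
  choose c ψ h7 using h6
  refine ⟨Q, fun φ => b (c φ).1, fun z hz => ?_, fun φ => ?_, fun φ₀ => ⟨ε (c φ₀), h4 _, ?_,
    fun φ h8 => ?_⟩⟩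
  · obtain ⟨φ, hφ⟩ := h1 ⟨z, hz⟩
    obtain ⟨y, hy, φ', h8⟩ := hs (evZ C hz) ⟨⟨z, hz⟩, φ, (π_iff _ φ hz).1 hφ⟩
    exact ⟨φ'.comp (ρ ⟨y, hy⟩), ((h3 ⟨y, hy⟩).π φ').trans ((π_iff _ φ' hz).2 h8)⟩
  · have := hP _ _ _ (h3 (c φ)) (ψ φ) _ (h2 _ _)
    rwa [← h7] at this
  · have := AlgHom.congr_fun (h7 φ₀) (ε (c φ₀))
    rw [this, AlgHom.comp_apply, h5, if_pos rfl, map_one]
    exact one_ne_zero
  · have := AlgHom.congr_fun (h7 φ) (ε (c φ₀))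
    rw [this, AlgHom.comp_apply, h5] at h8
    by_cases h9 : c φ = c φ₀
    · simp only [h9]
    · rw [if_neg h9, map_zero] at h8
      exact (h8 rfl).elim

/-- **COVER** -/
theorem cover (hE : IsMF W q e) (hL : Lo C.p q a)
    (hc : ∀ z ∈ C.Z, ∀ d ∈ C.O z, Chi C.p q e a n d = s)
    (h : ∀ z ∈ C.Z, ∃ (T : Cht C) (φ : T.D →ₐ[ℂ] ℂ), T.π φ = z) :
    ∃ (T : Cht C) (r : ℕ) (F : (T.D →ₐ[ℂ] ℂ) → Fr C.ι κ r), (∀ z ∈ C.Z, ∃ φ, T.π φ = z) ∧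
      (∀ φ, Adm C.p q e a n (val φ T.d) (F φ)) ∧
      ∀ φ₀ : T.D →ₐ[ℂ] ℂ, ∃ w ∈ T.𝒟 0, φ₀ w ≠ 0 ∧ ∀ φ, φ w ≠ 0 → F φ = F φ₀ := by
  obtain ⟨z₀, hz₀⟩ := C.cn.nonempty
  obtain ⟨d₀, hd₀⟩ := (C.orb z₀ hz₀).ne
  obtain ⟨T, F, h1⟩ := cover_of (β := Fr C.ι κ (finrank ℂ (BB q e C.p d₀ (3 * (a + n)))))
    (fun T φ F => Adm C.p q e a n (val φ T.d) F) (fun T T' ρ hρ φ F h => by rwa [hρ.val])
    fun z hz => by
      obtain ⟨T, φ, rfl⟩ := h z hz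
      exact loc_frame hE hL hc T φ (rk_eq hE (val_mf T φ) ((C.orb z₀ hz₀).mf _ hd₀) hL
        ((hc _ (T.pt _) _ (T.fib _)).trans (hc _ hz₀ _ hd₀).symm))
  exact ⟨T, _, F, h1⟩

end Vale.Agent.P287T.Gv
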