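import Mathlib.RingTheory.Unramified.LocalStructure
import Mathlib.RingTheory.Unramified.Field
import Mathlib.RingTheory.Smooth.Flat
import Mathlib.RingTheory.TensorProduct.Pi
import Mathlib.RingTheory.Ideal.MinimalPrime.Noetherian
import Mathlib.RingTheory.Spectrum.Prime.Chevalley
import Mathlib.RingTheory.Spectrum.Prime.Noetherian
import Mathlib.RingTheory.Nullstellensatz
import Mathlib.RingTheory.Jacobson.Ring
import Mathlib.Analysis.Complex.Polynomial.Basic

/-!
# Smooth algebras over reduced rings are reduced; complex points of finitely generated algebras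
-/

open TensorProduct

namespace Vale.Agent.P287T.Gv

theorem inj_right {R K A : Type} [CommRing R] [CommRing K] [CommRing A] [Algebra R K]
    [Algebra R A] [Module.Flat R A] (h : Function.Injective (algebraMap R K)) :
    Function.Injective (Algebra.TensorProduct.includeLeftRingHom : A →+* A ⊗[R] K) := by
  have h1 := Module.Flat.lTensor_preserves_injective_linearMap (M := A) (Algebra.linearMap R K) h
  intro x y e
  have h2 : (TensorProduct.rid R A).symm x = (TensorProduct.rid R A).symm y := h1 (by simpa using e)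
  exact (TensorProduct.rid R A).symm.injective h2

theorem red_etale (P A : Type) [CommRing P] [IsDomain P] [CommRing A] [Algebra P A]
    [Algebra.Etale P A] : IsReduced A := by
  have h1 : IsReduced (FractionRing P ⊗[P] A) :=
    Algebra.FormallyUnramified.isReduced_of_field (FractionRing P) _
  have h2 : IsReduced (A ⊗[P] FractionRing P) :=
    isReduced_of_injective (Algebra.TensorProduct.comm P A (FractionRing P)).toRingHom
      (Algebra.TensorProduct.comm P A (FractionRing P)).injective
  exact isReduced_of_injective _ (inj_right (IsFractionRing.injective P (FractionRing P)))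

theorem red_dom (R A : Type) [CommRing R] [IsDomain R] [CommRing A] [Algebra R A]
    [Algebra.Smooth R A] : IsReduced A := by
  refine ⟨fun x hx => by_contra fun h0 => ?_⟩
  have h1 : (Submodule.span A {x}).annihilator ≠ ⊤ := fun e => h0 (by
    have : (1 : A) ∈ (Submodule.span A {x}).annihilator := e ▸ Submodule.mem_top
    simpa using (Submodule.mem_annihilator_span_singleton x 1).1 this)
  obtain ⟨m, hm, hle⟩ := Ideal.exists_le_maximal _ h1
  obtain ⟨f, hf, n, alg, tower, std⟩ :=
    Algebra.IsSmoothAt.exists_isStandardEtale_mvPolynomial (R := R) (p := m)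
  have h2 : IsReduced (Localization.Away f) := red_etale (MvPolynomial (Fin n) R) _
  have h3 : algebraMap A (Localization.Away f) x = 0 := (hx.map _).eq_zero
  obtain ⟨⟨_, k, rfl⟩, h4⟩ := (IsLocalization.map_eq_zero_iff (Submonoid.powers f) _ x).1 h3
  exact hf (hm.isPrime.mem_of_pow_mem k
    (hle ((Submodule.mem_annihilator_span_singleton x _).2 h4)))

/-- A smooth algebra over a reduced noetherian ring is reduced. -/
theorem red_smooth (B A : Type) [CommRing B] [IsReduced B] [IsNoetherianRing B] [CommRing A]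
    [Algebra B A] [Algebra.Smooth B A] : IsReduced A := by
  classical
  have hf := (minimalPrimes.finite_of_isNoetherianRing B).to_subtype
  have := Fintype.ofFinite (minimalPrimes B)
  have h1 : Function.Injective (algebraMap B (∀ p : minimalPrimes B, B ⧸ p.1)) := by
    rw [injective_iff_map_eq_zero]
    intro x hx
    have : x ∈ sInf (⊥ : Ideal B).minimalPrimes := Ideal.mem_sInf.2 fun p hp =>
      Ideal.Quotient.eq_zero_iff_mem.1 (congrFun hx ⟨p, hp⟩)
    rw [Ideal.sInf_minimalPrimes] at this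
    exact IsNilpotent.eq_zero (mem_nilradical.1 this)
  have h2 : ∀ p : minimalPrimes B, IsReduced (A ⊗[B] (B ⧸ p.1)) := fun p => by
    have := p.2.isPrime
    have : IsReduced ((B ⧸ p.1) ⊗[B] A) := red_dom (B ⧸ p.1) _
    exact isReduced_of_injective (Algebra.TensorProduct.comm B A (B ⧸ p.1)).toRingHom
      (Algebra.TensorProduct.comm B A (B ⧸ p.1)).injective
  have h3 : IsReduced (A ⊗[B] ∀ p : minimalPrimes B, B ⧸ p.1) :=
    isReduced_of_injective (Algebra.TensorProduct.piRight B B A _).toRingHom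
      (Algebra.TensorProduct.piRight B B A _).injective
  exact isReduced_of_injective _ (inj_right h1)

variable {A : Type} [CommRing A] [Algebra ℂ A] [Algebra.FiniteType ℂ A]

/-- Every proper ideal vanishes at a complex point. -/
theorem exists_pt {I : Ideal A} (h : I ≠ ⊤) : ∃ φ : A →ₐ[ℂ] ℂ, ∀ a ∈ I, φ a = 0 := by
  obtain ⟨m, hm, hle⟩ := Ideal.exists_le_maximal _ h
  let _ := Ideal.Quotient.field m
  have : Module.Finite ℂ (A ⧸ m) := finite_of_finite_type_of_isJacobsonRing _ _
  let e := AlgEquiv.ofBijective (Algebra.ofId ℂ (A ⧸ m))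
    IsAlgClosed.algebraMap_bijective_of_isIntegral
  exact ⟨e.symm.toAlgHom.comp (Ideal.Quotient.mkₐ ℂ m), fun a ha => by
    simp [Ideal.Quotient.eq_zero_iff_mem.2 (hle ha)]⟩

theorem span_top {S : Set A} (h : ∀ φ : A →ₐ[ℂ] ℂ, ∃ s ∈ S, φ s ≠ 0) : Ideal.span S = ⊤ :=
  by_contra fun e => by
    obtain ⟨φ, hφ⟩ := exists_pt e
    obtain ⟨s, h1, h2⟩ := h φ
    exact h2 (hφ s (Ideal.subset_span h1))

/-- An element of a reduced algebra that vanishes at all complex points is zero. -/
theorem eq_zero_of_pts [IsReduced A] {a : A} (h : ∀ φ : A →ₐ[ℂ] ℂ, φ a = 0) : a = 0 := by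
  have : IsJacobsonRing A := isJacobsonRing_of_finiteType (A := ℂ)
  have h1 : a ∈ (⊥ : Ideal A).jacobson := Ideal.mem_sInf.2 fun m hm => by_contra fun h2 => by
    obtain ⟨φ, hφ⟩ := exists_pt hm.2.ne_top
    obtain ⟨y, i, hi, e⟩ := hm.2.exists_inv h2
    have := congrArg φ e
    rw [map_add, map_mul, h φ, hφ i hi, map_one] at this
    simp at this
  rwa [IsJacobsonRing.out this Ideal.isRadical_bot, Ideal.mem_bot] at h1

/-- A point under a prime ideal of `D` is under a complex point. -/
theorem lift_pt {B D : Type} [CommRing B] [Algebra ℂ B] [CommRing D] [Algebra ℂ D] [Algebra B D]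
    [IsScalarTower ℂ B D] [Algebra.FiniteType ℂ D] (ψ : B →ₐ[ℂ] ℂ) (q : Ideal D) (hq : q ≠ ⊤)
    (h : ∀ b, ψ b = 0 → algebraMap B D b ∈ q) :
    ∃ φ : D →ₐ[ℂ] ℂ, (∀ a ∈ q, φ a = 0) ∧ ∀ b, φ (algebraMap B D b) = ψ b := by
  obtain ⟨φ, hφ⟩ := exists_pt hq
  refine ⟨φ, hφ, fun b => ?_⟩
  have := hφ _ (h (b - algebraMap ℂ B (ψ b)) (by simp))
  rwa [map_sub, map_sub, ← IsScalarTower.algebraMap_apply, AlgHom.commutes, sub_eq_zero] at this

/-- Finitely many smooth algebras suffice to cover a set of points. -/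
theorem fin_cover {B : Type} [CommRing B] [Algebra ℂ B] [Algebra.FiniteType ℂ B] {α : Type}
    (D : α → Type) [∀ a, CommRing (D a)] [∀ a, Algebra ℂ (D a)] [∀ a, Algebra B (D a)]
    [∀ a, IsScalarTower ℂ B (D a)] [∀ a, Algebra.Smooth B (D a)] :
    ∃ s : Finset α, ∀ ψ : B →ₐ[ℂ] ℂ, (∃ a, ∃ φ : D a →ₐ[ℂ] ℂ, ∀ b, φ (algebraMap B _ b) = ψ b) →
      ∃ a ∈ s, ∃ φ : D a →ₐ[ℂ] ℂ, ∀ b, φ (algebraMap B _ b) = ψ b := by
  have : IsNoetherianRing B := Algebra.FiniteType.isNoetherianRing ℂ B
  let U : α → Set (PrimeSpectrum B) := fun a => Set.range (PrimeSpectrum.comap (algebraMap B (D a)))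
  have hU : ∀ a, IsOpen (U a) := fun a =>
    PrimeSpectrum.isOpenMap_comap_of_hasGoingDown_of_finitePresentation.isOpen_range
  obtain ⟨s, hs⟩ := (TopologicalSpace.NoetherianSpace.isCompact (⋃ a, U a)).elim_finite_subcover U hU
    subset_rfl
  refine ⟨s, fun ψ ⟨a, φ, h⟩ => ?_⟩
  have h1 : PrimeSpectrum.comap (algebraMap B (D a)) ⟨RingHom.ker φ, RingHom.ker_isPrime φ⟩ ∈
      ⋃ a, U a := Set.mem_iUnion.2 ⟨a, _, rfl⟩
  obtain ⟨a', ha', q, hq⟩ := Set.mem_iUnion₂.1 (hs h1)
  have : Algebra.FiniteType ℂ (D a') := .trans (S := B) inferInstance inferInstance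
  obtain ⟨φ', -, h2⟩ := lift_pt ψ q.asIdeal q.isPrime.ne_top fun b hb => by
    have h3 : b ∈ (PrimeSpectrum.comap (algebraMap B (D a')) q).asIdeal := by
      rw [hq]
      exact (h b).trans hb
    exact h3
  exact ⟨a', ha', φ', h2⟩

end Vale.Agent.P287T.Gv
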